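import Vale.Agent.P011.D4T.H62.KC

/-!
Block D4I: the isomorphism of the adjoint groups and the involution `I`: the part over `E`.
-/

namespace Vale.Agent.P011.D4I.H62

set_option linter.unusedSectionVars false

open Vale.Agent.P011.MPQ Vale.Agent.P011.D4 Vale.Agent.P011.D4.Oct Vale.Agent.P011.E6
open Vale.Agent.P011.D4T Vale.Agent.P011.D4T.H62

section

variable {k F O : Type} [Field k] [Field F] [Field O] [Algebra k F] [Algebra k O] [Algebra F O]
  [IsScalarTower k F O] {a b c : kˣ}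

theorem star_smulO (t : O) (x : OctL O a b c) : star (t • x) = t • star x := by
  ext1
  · rw [fst_star, fst_smul, fst_smul, fst_star, QuaternionAlgebra.star_smul]
  · rw [snd_star, snd_smul, snd_smul, snd_star, smul_neg]

theorem omap_smulO (s : O ≃ₐ[k] O) (t : O) (x : OctL O a b c) :
    omap s (t • x) = s t • omap s x := by
  apply ext8 <;> exact map_mul s _ _

theorem omap_addO (s : O ≃ₐ[k] O) (x y : OctL O a b c) :
    omap s (x + y) = omap s x + omap s y := by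
  apply ext8 <;> exact map_add s _ _

/-- The extension commutes with the extension of `I`. -/
theorem IsBc.im {y : OctL F a b c ≃ₗ[F] OctL F a b c} {Y : OctL O a b c ≃ₗ[O] OctL O a b c}
    (h : IsBc O y Y) {s : F ≃ₐ[k] F} {s' : O ≃ₐ[k] O}
    (hs : ∀ t : F, s' (algebraMap F O t) = algebraMap F O (s t))
    (hy : ∀ x, y (omap s (star x)) = omap s (star (y x))) (x : OctL O a b c) :
    Y (omap s' (star x)) = omap s' (star (Y x)) := by
  refine ext_oin (F := F) (f := fun x => Y (omap s' (star x)))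
    (g := fun x => omap s' (star (Y x))) (fun x y => ?_) (fun x y => ?_) ?_ ?_
    (fun t x => ?_) x
  · rw [star_add, omap_addO, map_add]
  · rw [map_add, star_add, omap_addO]
  · change Y (omap s' (star 0)) = 0
    rw [star_zero, omap_zero', map_zero]
  · change omap s' (star (Y 0)) = 0
    rw [map_zero, star_zero, omap_zero']
  · rw [star_smulO, omap_smulO, map_smul, map_smul, star_smulO, omap_smulO, ← oin_star,
      omap_oin' hs, h, h, ← oin_star, omap_oin' hs, hy]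

end

section main

variable {k L E E1 O : Type} [Field k] [Field L] [Field E] [Field E1] [Field O] [Algebra k L]
  [Algebra k E] [Algebra L E] [Algebra k E1] [Algebra L E1] [Algebra k O] [Algebra L O]
  [Algebra E O] [Algebra E1 O] [IsScalarTower k L E] [IsScalarTower k L E1]
  [IsScalarTower k E O] [IsScalarTower k E1 O] [IsScalarTower L E O] [IsScalarTower L E1 O]
  {ρ σ ι : E ≃ₐ[k] E} {ρ1 σ1 ι1 : E1 ≃ₐ[k] E1} {ρ' σ' τ' ι' : O ≃ₐ[k] O} {α : E} {α1 : E1}
  {a b c a1 b1 c1 : kˣ} {q q1 : Lˣ}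

/-- The data of a change of the quadratic field, with the involution `I`. -/
structure KCHI (ρ σ ι : E ≃ₐ[k] E) (ρ1 σ1 ι1 : E1 ≃ₐ[k] E1) (ρ' σ' τ' ι' : O ≃ₐ[k] O) (α : E)
    (α1 : E1) (q q1 : Lˣ) (u : OctL O a1 b1 c1 ≃ₗ[O] OctL O a b c) : Prop extends
    KCH ρ σ ρ1 σ1 ρ' σ' τ' α α1 q q1 u where
  hι : ∀ t : E, ι' (algebraMap E O t) = algebraMap E O (ι t)
  hι1 : ∀ t : E1, ι' (algebraMap E1 O t) = algebraMap E1 O (ι1 t)
  hI : ∃ s : O, s ≠ 0 ∧ ∀ x, omap ι' (star (u x)) = s • u (omap ι' (star x))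

variable {u : OctL O a1 b1 c1 ≃ₗ[O] OctL O a b c}

theorem KCHI.symm (h : KCHI ρ σ ι ρ1 σ1 ι1 ρ' σ' τ' ι' α α1 q q1 u) :
    KCHI ρ1 σ1 ι1 ρ σ ι ρ' τ' σ' ι' α1 α q1 q u.symm where
  toKCH := h.toKCH.symm
  hι := h.hι1
  hι1 := h.hι
  hI := by
    obtain ⟨t, ht, h1⟩ := h.hI
    refine ⟨t⁻¹, inv_ne_zero ht, fun x => ?_⟩
    apply u.injective
    rw [map_smul, LinearEquiv.apply_symm_apply]
    have h2 := h1 (u.symm x)
    rw [LinearEquiv.apply_symm_apply] at h2
    rw [h2, smul_smul, inv_mul_cancel₀ ht, one_smul]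

theorem KCHI.rel_I (h : KCHI ρ σ ι ρ1 σ1 ι1 ρ' σ' τ' ι' α α1 q q1 u)
    {z : OctL E a b c ≃ₗ[E] OctL E a b c} {y : OctL E1 a1 b1 c1 ≃ₗ[E1] OctL E1 a1 b1 c1}
    (hr : Rel u z y) (hz : ∀ x, z (omap ι (star x)) = omap ι (star (z x)))
    (x : OctL E1 a1 b1 c1) : y (omap ι1 (star x)) = omap ι1 (star (y x)) := by
  obtain ⟨Z, Y, h1, h2, h3⟩ := hr
  obtain ⟨s, hs, hI⟩ := h.hI
  have hZ := IsBc.im h1 h.hι hz
  have hY : ∀ x, Y (omap ι' (star x)) = omap ι' (star (Y x)) := by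
    intro x
    apply u.injective
    apply smul_right_injective _ hs
    change s • u _ = s • u _
    rw [← hI, h3, h3, ← map_smul Z, ← hI, hZ]
  apply oin_inj (O := O)
  rw [← h2, ← omap_oin' h.hι1, oin_star, hY, h2, ← oin_star, omap_oin' h.hι1]

theorem KCHI.rel_kap (h : KCHI ρ σ ι ρ1 σ1 ι1 ρ' σ' τ' ι' α α1 q q1 u)
    {z : OctL E a b c ≃ₗ[E] OctL E a b c} {y : OctL E1 a1 b1 c1 ≃ₗ[E1] OctL E1 a1 b1 c1}
    (hr : Rel u z y) {κ : L}
    (hκ : ∀ x x', z (tri ρ x x') = ρ (algebraMap L E κ) • tri ρ (z x) (z x'))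
    (x x' : OctL E1 a1 b1 c1) :
    y (tri ρ1 x x') = ρ1 (algebraMap L E1 κ) • tri ρ1 (y x) (y x') := by
  obtain ⟨Z, Y, h1, h2, h3⟩ := hr
  obtain ⟨e, he, hu⟩ := h.hu
  have hZ := h1.tri h.hρ hκ
  have hq : algebraMap E O (ρ (algebraMap L E κ)) = algebraMap E1 O (ρ1 (algebraMap L E1 κ)) := by
    rw [← h.hρ, ← h.hρ1, ← IsScalarTower.algebraMap_apply L E O,
      ← IsScalarTower.algebraMap_apply L E1 O]
  have hY : ∀ x x', Y (tri ρ' x x') =
      algebraMap E1 O (ρ1 (algebraMap L E1 κ)) • tri ρ' (Y x) (Y x') := by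
    intro x x'
    apply u.injective
    apply smul_right_injective _ he
    change e • u _ = e • u _
    rw [h3, map_smul, smul_comm e, ← hu, h3, h3, ← map_smul, ← hu, hZ, hq]
  apply oin_inj (O := O)
  rw [← h2, ← tri_oin h.hρ1, hY, h2, h2, oin_smul, tri_oin h.hρ1]

end main

end Vale.Agent.P011.D4I.H62
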