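import Vale.Agent.P011.D4I.Defs
import Vale.Agent.P011.D4I.H62.KCa

/-!
Block D4I: the isomorphism of the adjoint groups attached to a change of the quadratic field.
-/

namespace Vale.Agent.P011.D4I.H62

set_option linter.unusedSectionVars false

open Vale.Agent.P011.MPQ Vale.Agent.P011.D4 Vale.Agent.P011.D4.Oct Vale.Agent.P011.E6
open Vale.Agent.P011.D4T Vale.Agent.P011.D4T.H62

variable {k L E E1 O : Type} [Field k] [Field L] [Field E] [Field E1] [Field O] [Algebra k L]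
  [Algebra k E] [Algebra L E] [Algebra k E1] [Algebra L E1] [Algebra k O] [Algebra L O]
  [Algebra E O] [Algebra E1 O] [IsScalarTower k L E] [IsScalarTower k L E1]
  [IsScalarTower k E O] [IsScalarTower k E1 O] [IsScalarTower L E O] [IsScalarTower L E1 O]
  {ρ σ ι : E ≃ₐ[k] E} {ρ1 σ1 ι1 : E1 ≃ₐ[k] E1} {ρ' σ' τ' ι' : O ≃ₐ[k] O} {α : E} {α1 : E1}
  {a b c a1 b1 c1 : kˣ} {q q1 : Lˣ} {u : OctL O a1 b1 c1 ≃ₗ[O] OctL O a b c}

/-- The images in the adjoint group over the other field. -/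
theorem KCHI.exists_rel (h : KCHI ρ σ ι ρ1 σ1 ι1 ρ' σ' τ' ι' α α1 q q1 u)
    (z : ATI ρ σ ι α a b c q) : ∃ y : ATI ρ1 σ1 ι1 α1 a1 b1 c1 q1, Rel u z.1 y.1 := by
  obtain ⟨y, hy⟩ := h.toKCH.exists_rel z.2.2.1
  obtain ⟨κ, hκ⟩ := z.2.1
  exact ⟨⟨y, ⟨κ, h.rel_kap hy hκ⟩, h.toKCH.rel_J hy, h.rel_I hy z.2.2.2⟩, hy⟩

/-- **KC.** The isomorphism of the adjoint groups. -/
theorem KCHI.exists_equiv (h : KCHI ρ σ ι ρ1 σ1 ι1 ρ' σ' τ' ι' α α1 q q1 u) :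
    ∃ φ : ATI ρ σ ι α a b c q ≃* ATI ρ1 σ1 ι1 α1 a1 b1 c1 q1,
      (∀ z, Rel u z.1 (φ z).1) ∧
      (∀ (z : ATI ρ σ ι α a b c q) (Z : OctL O a b c ≃ₗ[O] OctL O a b c), IsBc O z.1 Z →
        ∀ x : OctL E1 a1 b1 c1, u (oin O ((φ z).1 x)) = Z (u (oin O x))) ∧
      (∀ (z : ATI ρ σ ι α a b c q) (κ : Lˣ), IsKapI ρ z.1 κ ↔ IsKapI ρ1 (φ z).1 κ) ∧
      ∀ z : ATI ρ σ ι α a b c q, z ∈ stab0I ρ σ ι α a b c q ↔
        φ z ∈ stab0I ρ1 σ1 ι1 α1 a1 b1 c1 q1 := by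
  have hf := h.exists_rel
  have hg : ∀ y : ATI ρ1 σ1 ι1 α1 a1 b1 c1 q1, ∃ z : ATI ρ σ ι α a b c q, Rel u z.1 y.1 := by
    intro y
    obtain ⟨z, hz⟩ := h.symm.exists_rel y
    exact ⟨z, hz.symm⟩
  choose f hf using hf
  choose g hg using hg
  refine ⟨{ toFun := f
            invFun := g
            left_inv := fun z => Subtype.ext ((hg (f z)).symm.unique (hf z).symm)
            right_inv := fun y => Subtype.ext ((hf (g y)).unique (hg y))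
            map_mul' := fun z z' => Subtype.ext ((hf (z * z')).unique ((hf z).mul (hf z'))) },
    hf, fun z Z hZ x => ?_, fun z κ => ⟨fun hκ => h.rel_kap (hf z) hκ, fun hκ => ?_⟩,
    fun z => ⟨fun hz => h.toKCH.rel_t0 (hf z) hz, fun hz => ?_⟩⟩
  · obtain ⟨Z', Y, h1, h2, h3⟩ := hf z
    change u (oin O ((f z).1 x)) = _
    rw [hZ.unique h1, ← h3, h2]
  · exact h.symm.rel_kap (hf z).symm hκ
  · exact h.symm.toKCH.rel_t0 (hf z).symm hz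

end Vale.Agent.P011.D4I.H62
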